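import Vale.Agent.P307.Relational.Induced

/-!
# P307: Shelah's eventual categoricity conjecture for classes with small components
-/

namespace Vale.Agent.Results.P307.Components

open Vale.Agent.P307.Relational Cardinal

universe u

/-- For every infinite `lam`, with `μ = (2 ^ lam)⁺`, every AEC in a relational vocabulary of at
most `lam` symbols with the Löwenheim–Skolem property at `lam`, all of whose models have
connected components of size at most `lam`, that is categorical in some `κ ≥ μ` is categorical
in every `κ' ≥ μ`. -/
theorem result (lam : Cardinal.{u}) (hlam : ℵ₀ ≤ lam) :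
    lam ≤ Order.succ (2 ^ lam) ∧
    ∀ (V : Vocab.{u}), #V.Sym ≤ lam → ∀ K : Class V, K.HasLS lam →
      (∀ M, K.mem M → M.ComponentsLE lam) →
      ∀ κ, Order.succ (2 ^ lam) ≤ κ → K.Categorical κ →
        ∀ κ', Order.succ (2 ^ lam) ≤ κ' → K.Categorical κ' :=
  ⟨(cantor lam).le.trans (Order.le_succ _), fun _ hV K hLS hcomp _ hκ hcat _ hκ' =>
    categorical_transfer hlam hV K hLS hcomp (Order.succ_le_iff.1 hκ) (Order.succ_le_iff.1 hκ')
      hcat⟩

end Vale.Agent.Results.P307.Components
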